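import Mathlib

/-!
# P248: anti-blocking bodies, definitions

Definitions for the proof of the volume product inequality for locally anti-blocking
bodies (Saint-Raymond inequality for anti-blocking bodies by the cone argument of Meyer).
Everything is stated over `Fin n → ℝ` with the product Lebesgue measure.
-/

namespace Vale.Agent.Lib.P248.H25

open MeasureTheory

/-- `A` is anti-blocking: it lies in the closed positive orthant and with every point it
contains all points of the orthant that are coordinatewise below it. -/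
def AB {n : ℕ} (A : Set (Fin n → ℝ)) : Prop :=
  (∀ x ∈ A, ∀ i, 0 ≤ x i) ∧
    ∀ x ∈ A, ∀ y : Fin n → ℝ, (∀ i, 0 ≤ y i ∧ y i ≤ x i) → y ∈ A

/-- The anti-blocking dual `{y ≥ 0 | ∑ x_i y_i ≤ 1 for all x ∈ A}`. -/
def dual {n : ℕ} (A : Set (Fin n → ℝ)) : Set (Fin n → ℝ) :=
  {y | (∀ i, 0 ≤ y i) ∧ ∀ x ∈ A, ∑ i, x i * y i ≤ 1}

/-- The section of `A` by the coordinate hyperplane `x_i = 0`, as a subset of `R^n`. -/
def sec {n : ℕ} (A : Set (Fin (n + 1) → ℝ)) (i : Fin (n + 1)) : Set (Fin n → ℝ) :=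
  {z | (i.insertNth (0 : ℝ) z : Fin (n + 1) → ℝ) ∈ A}

/-- Standing hypotheses: `A` is closed, convex, anti-blocking, contains the cube `[0, ε]^n`
and all coordinates of its points are at most `R`. -/
structure Good {n : ℕ} (A : Set (Fin n → ℝ)) (ε R : ℝ) : Prop where
  closed : IsClosed A
  convex : Convex ℝ A
  ab : AB A
  eps_pos : 0 < ε
  cube : ∀ x : Fin n → ℝ, (∀ i, 0 ≤ x i ∧ x i ≤ ε) → x ∈ A
  bdd : ∀ x ∈ A, ∀ i, x i ≤ R

/-- The open cone with apex `x` over the part of the face `p_i = 0` of `A` whose other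
coordinates are positive. -/
def cone {n : ℕ} (A : Set (Fin (n + 1) → ℝ)) (x : Fin (n + 1) → ℝ) (i : Fin (n + 1)) :
    Set (Fin (n + 1) → ℝ) :=
  {p | 0 < p i ∧ p i < x i ∧ (∀ j, j ≠ i → 0 < x i * p j - p i * x j) ∧
    (x i - p i)⁻¹ • (x i • p - p i • x) ∈ A}

/-- Coordinate reflection by a sign pattern. -/
def refl {n : ℕ} (σ : Fin n → Bool) (x : Fin n → ℝ) : Fin n → ℝ :=
  fun i => if σ i then x i else -x i

/-- `K` is locally anti-blocking: with every point `x` it contains every point `y` whose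
coordinates lie between `0` and the coordinates of `x`. -/
def LAB {n : ℕ} (K : Set (Fin n → ℝ)) : Prop :=
  ∀ x ∈ K, ∀ y : Fin n → ℝ, (∀ i, 0 ≤ x i * y i ∧ |y i| ≤ |x i|) → y ∈ K

/-- The polar set with respect to the standard bilinear form on `Fin n → ℝ`. -/
def ppolar {n : ℕ} (K : Set (Fin n → ℝ)) : Set (Fin n → ℝ) :=
  {y | ∀ x ∈ K, ∑ i, x i * y i ≤ 1}

/-- The piece of `K` in the orthant with sign pattern `σ`, reflected into the positive
orthant. -/
def piece {n : ℕ} (K : Set (Fin n → ℝ)) (σ : Fin n → Bool) : Set (Fin n → ℝ) :=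
  {z | (∀ i, 0 ≤ z i) ∧ refl σ z ∈ K}

end Vale.Agent.Lib.P248.H25
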