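import Mathlib
import Vale.Agent.Lib.P248.helper1.ConeAux

/-!
Pool job P248-CQD: an interior point of the cone over D lies over an interior point of D, at
a height strictly between the base and the apex.
-/

namespace Vale.Agent.Lib.P248.H25Q

open MeasureTheory Set
open scoped ENNReal
open Vale.Agent.Lib.P227 Vale.Agent.Lib.P248.H1

theorem interior_coneE {n : ℕ} (D : Set (EuclideanSpace ℝ (Fin n)))
    (c : EuclideanSpace ℝ (Fin n)) (h : ℝ) (hh : 0 < h)
    (z : EuclideanSpace ℝ (Fin (n + 1))) (hz : z ∈ interior (coneE D c h)) :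
    ∃ ζ ∈ interior D, ∃ τ : ℝ, 0 < τ ∧ τ < 1 ∧
      z = ecomb (τ * h) ((1 - τ) • ζ + τ • c) := by
  obtain ⟨d, hd, r, hr0, hr1, hzeq⟩ := interior_subset hz
  have hz0 : z 0 = r * h := by rw [hzeq, ecomb_zero]
  have hcont1 : Continuous (fun t : ℝ => ecomb t (etail z)) :=
    continuous_ecomb_prod.comp (continuous_id.prodMk continuous_const)
  have hopen1 : IsOpen ((fun t : ℝ => ecomb t (etail z)) ⁻¹' interior (coneE D c h)) :=
    isOpen_interior.preimage hcont1
  have hsub1 : (fun t : ℝ => ecomb t (etail z)) ⁻¹' interior (coneE D c h) ⊆ Icc 0 h := by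
    intro t ht
    obtain ⟨d', _, r', hr0', hr1', heq⟩ := interior_subset ht
    have h0 : t = r' * h := by
      have e := congrArg (fun x : EuclideanSpace ℝ (Fin (n + 1)) => x 0) heq
      simp only [ecomb_zero] at e
      exact e
    constructor
    · rw [h0]
      exact mul_nonneg hr0' hh.le
    · rw [h0]
      nlinarith
  have hmem1 : z 0 ∈ interior (Icc (0 : ℝ) h) := by
    apply interior_maximal hsub1 hopen1
    show ecomb (z 0) (etail z) ∈ interior (coneE D c h)
    rw [ecomb_eta]
    exact hz
  rw [interior_Icc, hz0] at hmem1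
  have hr0s : 0 < r := by
    by_contra hneg
    have hr : r = 0 := le_antisymm (not_lt.mp hneg) hr0
    rw [hr, zero_mul] at hmem1
    exact lt_irrefl _ hmem1.1
  have hr1s : r < 1 := by
    by_contra hneg
    have hr : r = 1 := le_antisymm hr1 (not_lt.mp hneg)
    rw [hr, one_mul] at hmem1
    exact lt_irrefl _ hmem1.2
  have hcont2 : Continuous
      (fun d' : EuclideanSpace ℝ (Fin n) => ecomb (r * h) ((1 - r) • d' + r • c)) :=
    (continuous_ecomb (r * h)).comp ((continuous_const_smul (1 - r)).add continuous_const)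
  have hopen2 : IsOpen ((fun d' : EuclideanSpace ℝ (Fin n) =>
      ecomb (r * h) ((1 - r) • d' + r • c)) ⁻¹' interior (coneE D c h)) :=
    isOpen_interior.preimage hcont2
  have hsub2 : (fun d' : EuclideanSpace ℝ (Fin n) =>
      ecomb (r * h) ((1 - r) • d' + r • c)) ⁻¹' interior (coneE D c h) ⊆ D := by
    intro d' hd'
    obtain ⟨d'', hd'', r', _, _, heq⟩ := interior_subset hd'
    have e0 : r * h = r' * h := by
      have e := congrArg (fun x : EuclideanSpace ℝ (Fin (n + 1)) => x 0) heq
      simp only [ecomb_zero] at e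
      exact e
    have er : r = r' := mul_right_cancel₀ hh.ne' e0
    have e1 : (1 - r) • d' + r • c = (1 - r') • d'' + r' • c := by
      have e := congrArg etail heq
      rwa [etail_ecomb, etail_ecomb] at e
    rw [← er] at e1
    have e2 : (1 - r) • d' = (1 - r) • d'' := add_right_cancel e1
    have hne : (1 - r) ≠ 0 := by linarith
    have e3 : d' = d'' := smul_right_injective _ hne e2
    rw [e3]
    exact hd''
  have hd_int : d ∈ interior D := by
    apply interior_maximal hsub2 hopen2
    show ecomb (r * h) ((1 - r) • d + r • c) ∈ interior (coneE D c h)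
    rw [← hzeq]
    exact hz
  exact ⟨d, hd_int, r, hr0s, hr1s, hzeq⟩

end Vale.Agent.Lib.P248.H25Q
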